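import Vale.Agent.P336.H746.Interface

/-!
# Part C1: independence of the hash function
-/

namespace Vale.Agent.P336.H792

open Finset Polynomial Vale.Agent.P336.H746

/-- The polynomial of the bits `y`. -/
noncomputable def poly (N : ℕ) (y : Fin N → Bool) : Polynomial (ZMod 2) :=
  ∑ i : Fin N, if y i then (X : Polynomial (ZMod 2)) ^ (i : ℕ) else 0

theorem coeff_poly {N : ℕ} (y : Fin N → Bool) (i : Fin N) :
    (poly N y).coeff i = if y i then 1 else 0 := by
  classical
  rw [poly, finsetSum_coeff, Finset.sum_eq_single i]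
  · split_ifs <;> simp
  · intro j _ hj
    have : (i : ℕ) ≠ (j : ℕ) := fun h => hj (Fin.ext h.symm)
    split_ifs <;> simp [coeff_X_pow, this]
  · simp

theorem poly_injective (N : ℕ) : Function.Injective (poly N) := by
  intro y y' h
  funext i
  have h1 := coeff_poly y i
  rw [h, coeff_poly] at h1
  cases hy : y i <;> cases hy' : y' i <;> simp_all

theorem natDegree_poly_le {N : ℕ} (y : Fin N → Bool) : (poly N y).natDegree ≤ N - 1 := by
  classical
  refine natDegree_sum_le_of_forall_le _ _ ?_
  intro i _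
  split_ifs
  · rw [natDegree_X_pow]; omega
  · simp

/-- some power sum is nonzero -/
theorem exists_powerSum_ne_zero {N : ℕ} (T : Finset (Fin N → Bool)) (hT : T.Nonempty) :
    ∃ j < #T, ∑ y ∈ T, (poly N y) ^ j ≠ 0 := by
  classical
  by_contra hcon
  push Not at hcon
  let e : Fin (#T) ≃ T := (T.equivFin).symm
  let f : Fin (#T) → Polynomial (ZMod 2) := fun i => poly N (e i : Fin N → Bool)
  have hf : Function.Injective f := by
    intro i i' h
    have := poly_injective N h
    exact e.injective (Subtype.ext this)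
  have h0 : ∀ i : Fin (#T), ∑ j : Fin (#T), (fun _ => (1 : Polynomial (ZMod 2))) j * f j ^ (i : ℕ) = 0 := by
    intro i
    have h1 := hcon i i.2
    have h2 : ∑ j : Fin (#T), (fun _ => (1 : Polynomial (ZMod 2))) j * f j ^ (i : ℕ) =
        ∑ y ∈ T, (poly N y) ^ (i : ℕ) := by
      simp only [one_mul]
      rw [← Finset.sum_coe_sort T (fun y => (poly N y) ^ (i : ℕ))]
      exact Equiv.sum_comp e (fun y : T => (poly N (y : Fin N → Bool)) ^ (i : ℕ))
    rw [h2, h1]
  have h3 := Matrix.eq_zero_of_forall_pow_sum_mul_pow_eq_zero hf h0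
  have h4 := congrFun h3 ⟨0, hT.card_pos⟩
  simp at h4

theorem hash_eq (N m : ℕ) (a : Fin m → Fin (m * N) → Bool) (y : Fin N → Bool) :
    hash N m a y = (∑ j : Fin m, poly (m * N) (a j) * poly N y ^ (j : ℕ)).coeff (m * N - 1) := rfl


/-- the sign of an element of `ZMod 2` -/
noncomputable def sg (u : ZMod 2) : ℝ := if u = 0 then 1 else -1

theorem sg_add (u v : ZMod 2) : sg (u + v) = sg u * sg v := by
  have h : ∀ w : ZMod 2, w = 0 ∨ w = 1 := by decide
  rcases h u with rfl | rfl <;> rcases h v with rfl | rfl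
  · simp [sg]
  · simp [sg]
  · simp [sg]
  · have : (1 + 1 : ZMod 2) = 0 := by decide
    rw [this]; simp [sg]

theorem sg_sum {ι : Type*} (T : Finset ι) (f : ι → ZMod 2) :
    sg (∑ y ∈ T, f y) = ∏ y ∈ T, sg (f y) := by
  classical
  induction T using Finset.induction_on with
  | empty => simp [sg]
  | insert a T ha ih => rw [Finset.sum_insert ha, Finset.prod_insert ha, sg_add, ih]

theorem hsign_eq (N m : ℕ) (a : Fin m → Fin (m * N) → Bool) (y : Fin N → Bool) :
    hsign N m a y = sg (hash N m a y) := rfl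

theorem prod_hsign (N m : ℕ) (a : Fin m → Fin (m * N) → Bool) (T : Finset (Fin N → Bool)) :
    ∏ y ∈ T, hsign N m a y =
      sg ((∑ j : Fin m, poly (m * N) (a j) * ∑ y ∈ T, poly N y ^ (j : ℕ)).coeff (m * N - 1)) := by
  simp only [hsign_eq, ← sg_sum, hash_eq]
  congr 1
  rw [← finsetSum_coeff, Finset.sum_comm]
  congr 1
  refine Finset.sum_congr rfl fun j _ => ?_
  rw [Finset.mul_sum]

/-- flip the bit `(j, s)` of the seed -/
def flip {m M : ℕ} (j : Fin m) (s : Fin M) (a : Fin m → Fin M → Bool) : Fin m → Fin M → Bool :=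
  Function.update a j (Function.update (a j) s (!(a j s)))

theorem flip_flip {m M : ℕ} (j : Fin m) (s : Fin M) (a : Fin m → Fin M → Bool) :
    flip j s (flip j s a) = a := by
  simp [flip]

theorem flip_ne {m M : ℕ} (j : Fin m) (s : Fin M) (a : Fin m → Fin M → Bool) :
    flip j s a ≠ a := by
  intro h
  have := congrFun (congrFun h j) s
  simp [flip] at this

theorem poly_update {M : ℕ} (y : Fin M → Bool) (s : Fin M) :
    poly M (Function.update y s (!(y s))) = poly M y + X ^ (s : ℕ) := by
  classical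
  have h2 : ∀ p : Polynomial (ZMod 2), p + p = 0 := fun p => CharTwo.add_self_eq_zero p
  rw [poly, poly, ← Finset.add_sum_erase _ _ (Finset.mem_univ s),
    ← Finset.add_sum_erase (Finset.univ : Finset (Fin M))
      (fun i => if y i then (X : Polynomial (ZMod 2)) ^ (i : ℕ) else 0) (Finset.mem_univ s)]
  have e : ∑ x ∈ Finset.univ.erase s, (if Function.update y s (!(y s)) x = true then
      (X : Polynomial (ZMod 2)) ^ (x : ℕ) else 0) =
      ∑ x ∈ Finset.univ.erase s, (if y x = true then (X : Polynomial (ZMod 2)) ^ (x : ℕ) else 0) := by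
    refine Finset.sum_congr rfl fun i hi => ?_
    rw [Function.update_of_ne (Finset.ne_of_mem_erase hi)]
  rw [e]
  simp only [Function.update_self]
  cases hy : y s
  · simp
    ring
  · simp only [Bool.not_true, Bool.false_eq_true, if_false, if_true]
    rw [zero_add, add_right_comm, h2, zero_add]

theorem poly_flip {m M : ℕ} (j : Fin m) (s : Fin M) (a : Fin m → Fin M → Bool) (i : Fin m) :
    poly M (flip j s a i) = poly M (a i) + if i = j then X ^ (s : ℕ) else 0 := by
  by_cases h : i = j
  · subst h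
    rw [if_pos rfl, flip, Function.update_self, poly_update]
  · rw [if_neg h, flip, Function.update_of_ne h, add_zero]

theorem partC1 (N m : ℕ) (T : Finset (Fin N → Bool)) (hN : 1 ≤ N) (hT : T.Nonempty)
    (hm : #T ≤ m) :
    ∑ a : Fin m → Fin (m * N) → Bool, ∏ y ∈ T, hsign N m a y = 0 := by
  classical
  obtain ⟨j0, hj0, hP⟩ := exists_powerSum_ne_zero T hT
  set P := ∑ y ∈ T, poly N y ^ j0 with hPdef
  let j : Fin m := ⟨j0, hj0.trans_le hm⟩
  have hm1 : 1 ≤ m := le_trans hT.card_pos hm
  have hdeg : P.natDegree ≤ j0 * (N - 1) := by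
    refine natDegree_sum_le_of_forall_le _ _ ?_
    intro y _
    exact (natDegree_pow_le).trans (Nat.mul_le_mul_left _ (natDegree_poly_le y))
  have hmN : 1 ≤ m * N := Nat.mul_pos hm1 hN
  have hdeg' : P.natDegree ≤ m * N - 1 := by
    refine hdeg.trans ?_
    have h1 : j0 + 1 ≤ m := hj0.trans_le hm
    have h2 : (j0 + 1) * N ≤ m * N := Nat.mul_le_mul_right _ h1
    have h3 : j0 * (N - 1) ≤ j0 * N := Nat.mul_le_mul_left _ (Nat.sub_le _ _)
    have h4 : (j0 + 1) * N = j0 * N + N := by ring
    omega
  let s : Fin (m * N) := ⟨m * N - 1 - P.natDegree, by omega⟩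
  refine Finset.sum_involution (fun a _ => flip j s a) ?_ ?_ ?_ ?_
  · intro a _
    rw [prod_hsign, prod_hsign]
    set c := (∑ i : Fin m, poly (m * N) (a i) * ∑ y ∈ T, poly N y ^ (i : ℕ)).coeff (m * N - 1)
    have h1 : (∑ i : Fin m, poly (m * N) (flip j s a i) * ∑ y ∈ T, poly N y ^ (i : ℕ)).coeff
        (m * N - 1) = c + 1 := by
      have h2 : ∑ i : Fin m, poly (m * N) (flip j s a i) * ∑ y ∈ T, poly N y ^ (i : ℕ) =
          ∑ i : Fin m, poly (m * N) (a i) * ∑ y ∈ T, poly N y ^ (i : ℕ) + X ^ (s : ℕ) * P := by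
        simp only [poly_flip, add_mul, Finset.sum_add_distrib, ite_mul, zero_mul]
        congr 1
        rw [Finset.sum_ite_eq' Finset.univ j]
        simp [j, hPdef]
      rw [h2, coeff_add]
      congr 1
      have h3 : m * N - 1 = P.natDegree + (s : ℕ) := by
        simp only [s]; omega
      rw [h3, mul_comm, coeff_mul_X_pow]
      have h4 : P.leadingCoeff ≠ 0 := leadingCoeff_ne_zero.2 hP
      have h5 : ∀ w : ZMod 2, w ≠ 0 → w = 1 := by decide
      exact h5 _ h4
    rw [h1, sg_add]
    have : sg 1 = -1 := by simp [sg]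
    rw [this]; ring
  · intro a _ _
    exact flip_ne j s a
  · intro a _
    exact Finset.mem_univ _
  · intro a _
    exact flip_flip j s a

end Vale.Agent.P336.H792
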