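import Vale.Agent.P336.H792.Numerics
import Vale.Agent.P336.H887.Seed
import Vale.Agent.P336.H932.Slice
import Vale.Agent.P336.H932.LangP
import Vale.Agent.P336.H52.Sparsify
import Vale.Agent.P336.H928.Growth

/-!
# P336: the lower bound
-/

namespace Vale.Agent.P336

open Vale.Agent.P336.Num

/-- From the correlation inequality to the lower bound. -/
theorem le_of_ineq {s ν k : ℕ} (hk : 2 * ν + 3 ≤ k)
    (h : (1 : ℝ) / 4 ≤ s * (1 / 2 ^ (ν + 3)) + (s : ℝ) ^ 2 / 2 ^ k) : 2 ^ ν ≤ s := by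
  by_contra hcon
  push Not at hcon
  have h1 : (s : ℝ) < 2 ^ ν := by exact_mod_cast hcon
  have h0 : (0 : ℝ) ≤ s := Nat.cast_nonneg _
  have h2 : (s : ℝ) * (1 / 2 ^ (ν + 3)) < 1 / 8 := by
    calc (s : ℝ) * (1 / 2 ^ (ν + 3)) < 2 ^ ν * (1 / 2 ^ (ν + 3)) :=
          mul_lt_mul_of_pos_right h1 (by positivity)
      _ = 1 / 8 := by
        rw [pow_add]
        field_simp
        norm_num
  have h3 : (s : ℝ) ^ 2 / 2 ^ k ≤ 1 / 8 := by
    have h4 : (s : ℝ) ^ 2 ≤ (2 ^ ν) ^ 2 := pow_le_pow_left₀ h0 h1.le 2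
    have h5 : (2 : ℝ) ^ (2 * ν + 3) ≤ 2 ^ k := pow_le_pow_right₀ (by norm_num) hk
    calc (s : ℝ) ^ 2 / 2 ^ k ≤ (2 ^ ν) ^ 2 / 2 ^ (2 * ν + 3) := by gcongr
      _ = 1 / 8 := by
        rw [pow_add, ← pow_mul, mul_comm ν 2]
        field_simp
        norm_num
  linarith

/-- The lower bound for the slices of the language and of its complement. -/
theorem S3_lang_ge {n : ℕ} (hn : 12 ≤ Nat.size (Nat.size (Nat.sqrt n))) :
    2 ^ nu (Nat.sqrt n) ≤ S3 (slice lang n) ∧ 2 ^ nu (Nat.sqrt n) ≤ S3 fun x => !slice lang n x := by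
  set S := Nat.sqrt n with hS
  have hB : Basic S := basic hn
  have hcard : Fintype.card (Fin (gg S) × (Fin (mm S) ⊕ Fin (mm S))) = NN S := by
    rw [Fintype.card_prod, Fintype.card_sum, Fintype.card_fin, Fintype.card_fin, NN]
    ring
  have ht : 1 ≤ gg S := Nat.mul_pos hB.hτ hB.hτ
  have hb : 0 < bb S := Nat.div_pos (by have := tau_le hB; omega) hB.hτ
  have hk : 12 * kk S ≤ bb S * gg S := Nat.mul_div_le _ _
  have hw := width hB
  obtain ⟨a, ha⟩ := Moment.corr_seed (G := Fin (gg S)) (U := Fin (mm S)) (t := gg S)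
    (K := NN S * 2 ^ (Nat.size S / 4)) (P := 2 ^ FF S) (b := bb S) (k := kk S) (n := nm S)
    (Q := QQ S) ht hb hk
    (fun C J y I hC => Sparse.sparseDec ht (ν := FF S) (by rw [hcard, FF]; omega)
      (by rw [hcard]; exact clauses hB) C J y I hC)
    (even_two_mul _) (by rw [hcard]; exact union hB le_rfl)
    (δ := 1 / 2 ^ (nu S + 3)) (by rw [Fintype.card_fin, Fintype.card_fin]; exact delta_le hB)
  have hlen : codeLen (gg S) (mm S) (bb S) ≤ n := (space hB).trans (Nat.sqrt_le n)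
  have hδ : (1 : ℝ) / 2 ^ (nu S + 3) ≤ 1 / 2 := by
    apply one_div_le_one_div_of_le (by norm_num)
    calc (2 : ℝ) = 2 ^ 1 := by norm_num
      _ ≤ 2 ^ (nu S + 3) := pow_le_pow_right₀ (by norm_num) (by omega)
  obtain ⟨h1, h2⟩ := S3_lang_of_hB a hlen hδ ha
  exact ⟨le_of_ineq hw h1, le_of_ineq hw h2⟩

theorem size_large {k S : ℕ} (h : 2 ^ k ≤ S) : k < Nat.size S := Nat.lt_size.2 h

/-- **Main theorem**. -/
theorem main : ∃ L : Set (List Bool), InP L ∧ ∃ c : ℝ, 0 < c ∧ ∀ᶠ n : ℕ in Filter.atTop,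
    (2 : ℝ) ^ (c * Real.sqrt (n * Real.log n / Real.log (Real.log n))) ≤ S3 (slice L n) ∧
    (2 : ℝ) ^ (c * Real.sqrt (n * Real.log n / Real.log (Real.log n))) ≤
      S3 (fun x => !slice L n x) := by
  obtain ⟨c, hc, hg⟩ := H928.growth
  refine ⟨lang, inP_lang, c, hc, ?_⟩
  filter_upwards [hg, Filter.eventually_ge_atTop ((2 ^ 2 ^ 11) * (2 ^ 2 ^ 11))] with n h1 h2
  have hS : 2 ^ 2 ^ 11 ≤ Nat.sqrt n := Nat.le_sqrt.2 h2
  have hsz : 12 ≤ Nat.size (Nat.size (Nat.sqrt n)) := by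
    have h3 := size_large hS
    exact size_large (k := 11) h3.le
  obtain ⟨h3, h4⟩ := S3_lang_ge hsz
  have h5 : (2 : ℝ) ^ (c * Real.sqrt (n * Real.log n / Real.log (Real.log n))) ≤
      2 ^ nu (Nat.sqrt n) := by
    refine le_trans ?_ h1
    have : (0 : ℝ) < 2 ^ (c * Real.sqrt (n * Real.log n / Real.log (Real.log n))) :=
      Real.rpow_pos_of_pos (by norm_num) _
    linarith
  exact ⟨h5.trans (by exact_mod_cast h3), h5.trans (by exact_mod_cast h4)⟩

end Vale.Agent.P336
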