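import Vale.Agent.P336.H746.Interface

/-!
# Part H1: the parameters
-/

namespace Vale.Agent.P336.H792

open Finset Vale.Agent.P336.H746

/-- everything in terms of `S = √ℓ` -/
def tau (S : ℕ) : ℕ := Nat.sqrt (Nat.size S / (128 * Nat.size (Nat.size S)))

theorem pow_lin (μ : ℕ) (h : 12 ≤ μ) : 128 * μ ≤ 2 ^ (μ - 1) := by
  obtain ⟨k, rfl⟩ := Nat.exists_eq_add_of_le h
  induction k with
  | zero => norm_num
  | succ k ih =>
    have ih' := ih (by omega)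
    have e : 12 + (k + 1) - 1 = (12 + k - 1) + 1 := by omega
    rw [e, pow_succ]
    omega

theorem pow_lin2 (μ : ℕ) (h : 12 ≤ μ) : 8 * (8 + 2 * μ) ≤ 2 ^ (μ - 1) := by
  have := pow_lin μ h
  omega

theorem pow_lin3 (L : ℕ) (h : 12 ≤ L) : 64 * L ≤ 2 ^ (L - 1) := by
  have := pow_lin L h
  omega

theorem size_le_self (S : ℕ) : Nat.size S ≤ S := by
  rw [Nat.size_le]
  exact Nat.lt_two_pow_self

theorem pow_size_le {S : ℕ} (h : 1 ≤ S) : 2 ^ (Nat.size S - 1) ≤ S := by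
  have h1 : Nat.size S ≠ 0 := by
    rw [Ne, Nat.size_eq_zero]; omega
  exact Nat.lt_size.1 (by omega)

/-- the nat conditions -/
theorem main_nat (S : ℕ) (hS : 12 ≤ Nat.size (Nat.size S)) :
    1 ≤ tau S ∧ 6 ≤ S / 64 * tau S ∧ 1 ≤ S / tau S ∧
    Nat.sqrt (Nat.sqrt S) * (Nat.sqrt (Nat.sqrt S) * (16 * (S / 64 * tau S))) +
      16 * (S / 64 * tau S) * (S / tau S) ≤ S * S ∧
    (Nat.sqrt (Nat.sqrt S) / 2) ^ 2 ≤ 2 ^ (S / 64 * tau S) ∧
    2 * (16 * (S / 64 * tau S)) + sparseSize (16 * (S / 64 * tau S)) (tau S ^ 2) *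
      (tau S ^ 2 * (Nat.log 2 (2 * (16 * (S / 64 * tau S))) + 2) + 1) + 1 ≤
      (S / 64 * tau S) * (Nat.sqrt (Nat.sqrt S) / 2) := by
  set L := Nat.size S with hL
  set μ := Nat.size L with hμ
  have hL0 : 2 ^ (μ - 1) ≤ L := pow_size_le (by
    by_contra h
    have : L = 0 := by omega
    rw [hμ, this] at hS
    simp at hS)
  have hL1 : 128 * μ ≤ L := (pow_lin μ hS).trans hL0
  have hL12 : 1536 ≤ L := by omega
  have hS0 : 2 ^ (L - 1) ≤ S := pow_size_le (by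
    by_contra h
    have : S = 0 := by omega
    rw [hL, this] at hL12
    simp at hL12)
  have hSL : S < 2 ^ L := Nat.lt_size_self S
  have hLμ : L < 2 ^ μ := Nat.lt_size_self L
  have hS64 : 64 * L ≤ S := (pow_lin3 L (by omega)).trans hS0
  have hτdef : tau S = Nat.sqrt (L / (128 * μ)) := rfl
  set τ := tau S with hτ
  have hτsq : τ * τ ≤ L / (128 * μ) := by rw [hτdef]; exact Nat.sqrt_le _
  have hτ1 : 1 ≤ τ := by
    rw [hτdef, Nat.le_sqrt]
    rw [Nat.le_div_iff_mul_le (by omega)]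
    omega
  have hτL : τ * τ * (128 * μ) ≤ L := by
    have h1 := Nat.mul_le_mul_right (128 * μ) hτsq
    exact h1.trans (Nat.div_mul_le_self _ _)
  have hτL' : τ * τ ≤ L := by nlinarith
  have hτS : τ ≤ S := by nlinarith
  set R := Nat.sqrt S with hR
  have hRS : R * R ≤ S := Nat.sqrt_le S
  set m := Nat.sqrt R with hm
  have hmR : m * m ≤ R := Nat.sqrt_le R
  have hτR : τ ≤ R := by
    rw [hR, Nat.le_sqrt]; omega
  have hS64' : L ≤ S / 64 := by
    rw [Nat.le_div_iff_mul_le (by norm_num)]; omega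
  set c := S / 64 with hc
  have hc64 : 64 * c ≤ S := Nat.mul_div_le S 64
  have hν1 : c ≤ c * τ := Nat.le_mul_of_pos_right _ hτ1
  refine ⟨hτ1, by omega, (Nat.one_le_div_iff hτ1).2 hτS, ?_, ?_, ?_⟩
  · -- space
    set b := S / τ with hb
    have hbτ : τ * b ≤ S := Nat.mul_div_le S τ
    have h1 : 4 * (m * (m * (16 * (c * τ)))) ≤ S * S := by
      calc 4 * (m * (m * (16 * (c * τ)))) = (m * m) * ((64 * c) * τ) := by ring
        _ ≤ R * (S * R) := by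
          apply Nat.mul_le_mul hmR
          exact Nat.mul_le_mul hc64 hτR
        _ = S * (R * R) := by ring
        _ ≤ S * S := Nat.mul_le_mul_left _ hRS
    have h2 : 4 * (16 * (c * τ) * b) ≤ S * S := by
      calc 4 * (16 * (c * τ) * b) = (64 * c) * (τ * b) := by ring
        _ ≤ S * S := Nat.mul_le_mul hc64 hbτ
    omega
  · calc (m / 2) ^ 2 ≤ m ^ 2 := Nat.pow_le_pow_left (Nat.div_le_self _ _) 2
      _ = m * m := by ring
      _ ≤ R := hmR
      _ ≤ S := (Nat.sqrt_le_self S)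
      _ ≤ 2 ^ L := hSL.le
      _ ≤ 2 ^ (c * τ) := Nat.pow_le_pow_right (by norm_num) (by omega)
  · set ν := c * τ with hν
    have hν0 : 1 ≤ ν := by omega
    set t := τ ^ 2 with ht
    have htt : t = τ * τ := by rw [ht]; ring
    have htL : t ≤ L := by omega
    have ht1 : 1 ≤ t := by rw [htt]; exact Nat.mul_pos hτ1 hτ1
    -- the size of the power
    set E := L / 32 with hE
    have hexp : (t - 1) * (12 + 3 * μ) ≤ E := by
      rw [hE, Nat.le_div_iff_mul_le (by norm_num)]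
      calc (t - 1) * (12 + 3 * μ) * 32 ≤ t * (4 * μ) * 32 := by
            apply Nat.mul_le_mul_right
            apply Nat.mul_le_mul (Nat.sub_le _ _)
            omega
        _ = τ * τ * (128 * μ) := by rw [htt]; ring
        _ ≤ L := hτL
    have hQ : (4096 * t ^ 3) ^ (t - 1) ≤ 2 ^ E := by
      have h1 : 4096 * t ^ 3 ≤ 2 ^ (12 + 3 * μ) := by
        have h2 : t ^ 3 ≤ (2 ^ μ) ^ 3 := Nat.pow_le_pow_left (htL.trans hLμ.le) 3
        calc 4096 * t ^ 3 ≤ 2 ^ 12 * (2 ^ μ) ^ 3 := Nat.mul_le_mul (by norm_num) h2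
          _ = 2 ^ (12 + 3 * μ) := by rw [← pow_mul, ← pow_add]; ring_nf
      calc (4096 * t ^ 3) ^ (t - 1) ≤ (2 ^ (12 + 3 * μ)) ^ (t - 1) :=
            Nat.pow_le_pow_left h1 _
        _ = 2 ^ ((t - 1) * (12 + 3 * μ)) := by rw [← pow_mul]; ring_nf
        _ ≤ 2 ^ E := Nat.pow_le_pow_right (by norm_num) hexp
    have hE1 : 1 ≤ 2 ^ E := Nat.one_le_two_pow
    have hsp : sparseSize (16 * ν) t ≤ 33 * ν * 2 ^ E := by
      unfold sparseSize
      have h1 : 2 * (16 * ν) * (4096 * t ^ 3) ^ (t - 1) ≤ 32 * ν * 2 ^ E := by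
        calc 2 * (16 * ν) * (4096 * t ^ 3) ^ (t - 1) ≤ 2 * (16 * ν) * 2 ^ E :=
              Nat.mul_le_mul_left _ hQ
          _ = 32 * ν * 2 ^ E := by ring
      have h2 : 1 ≤ ν * 2 ^ E := Nat.mul_pos hν0 hE1
      calc 2 * (16 * ν) * (4096 * t ^ 3) ^ (t - 1) + 1 ≤ 32 * ν * 2 ^ E + ν * 2 ^ E :=
            Nat.add_le_add h1 h2
        _ = 33 * ν * 2 ^ E := by ring
    have hlog : Nat.log 2 (2 * (16 * ν)) ≤ 2 * L + 5 := by
      have h1 : 2 * (16 * ν) < 2 ^ (2 * L + 6) := by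
        have h2 : ν ≤ S * S := Nat.mul_le_mul ((Nat.div_le_self S 64)) hτS
        have h3 : S * S < 2 ^ L * 2 ^ L := Nat.mul_lt_mul'' hSL hSL
        calc 2 * (16 * ν) ≤ 32 * (S * S) := by omega
          _ < 64 * (2 ^ L * 2 ^ L) := by omega
          _ = 2 ^ (2 * L + 6) := by rw [pow_add, two_mul, pow_add]; ring
      have := Nat.log_lt_of_lt_pow (by omega) h1
      omega
    have hfac : t * (Nat.log 2 (2 * (16 * ν)) + 2) + 1 ≤ 3 * (L * L) := by
      calc t * (Nat.log 2 (2 * (16 * ν)) + 2) + 1 ≤ L * (2 * L + 7) + 1 := by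
            apply Nat.add_le_add_right
            exact Nat.mul_le_mul htL (by omega)
        _ ≤ 3 * (L * L) := by nlinarith
    -- lower bound of `m`
    have hm2 : 2 ^ ((L - 1) / 4) ≤ m := by
      rw [hm, Nat.le_sqrt, hR, Nat.le_sqrt]
      calc 2 ^ ((L - 1) / 4) * 2 ^ ((L - 1) / 4) * (2 ^ ((L - 1) / 4) * 2 ^ ((L - 1) / 4))
          = 2 ^ ((L - 1) / 4 * 4) := by rw [← pow_add, ← pow_add]; ring_nf
        _ ≤ 2 ^ (L - 1) := Nat.pow_le_pow_right (by norm_num) (Nat.div_mul_le_self _ _)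
        _ ≤ S := hS0
    have hmhalf : 2 ^ ((L - 1) / 4 - 1) ≤ m / 2 := by
      rw [Nat.le_div_iff_mul_le (by norm_num), ← pow_succ]
      refine le_trans (Nat.pow_le_pow_right (by norm_num) ?_) hm2
      omega
    have hLL : 256 * (L * L) ≤ 2 ^ (8 + 2 * μ) := by
      have h1 : L * L ≤ 2 ^ μ * 2 ^ μ := Nat.mul_le_mul hLμ.le hLμ.le
      calc 256 * (L * L) ≤ 2 ^ 8 * (2 ^ μ * 2 ^ μ) := Nat.mul_le_mul (by norm_num) h1
        _ = 2 ^ (8 + 2 * μ) := by rw [pow_add, two_mul, pow_add]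
    have h8 : 8 + 2 * μ ≤ L / 8 := by
      rw [Nat.le_div_iff_mul_le (by norm_num)]
      have := (pow_lin2 μ hS).trans hL0
      omega
    have hbig : 256 * (L * L) * 2 ^ E ≤ m / 2 := by
      calc 256 * (L * L) * 2 ^ E ≤ 2 ^ (8 + 2 * μ) * 2 ^ E := Nat.mul_le_mul_right _ hLL
        _ = 2 ^ (8 + 2 * μ + E) := by rw [← pow_add]
        _ ≤ 2 ^ ((L - 1) / 4 - 1) := Nat.pow_le_pow_right (by norm_num) (by omega)
        _ ≤ m / 2 := hmhalf
    calc 2 * (16 * ν) + sparseSize (16 * ν) t * (t * (Nat.log 2 (2 * (16 * ν)) + 2) + 1) + 1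
        ≤ 32 * ν + 33 * ν * 2 ^ E * (3 * (L * L)) + 1 := by
          have := Nat.mul_le_mul hsp hfac
          omega
      _ ≤ 33 * ν * (L * L * 2 ^ E) + 99 * ν * (L * L * 2 ^ E) := by
          have h1 : 1 ≤ L * L * 2 ^ E := Nat.mul_pos (Nat.mul_pos (by omega) (by omega)) hE1
          have h2 : 33 * ν * 1 ≤ 33 * ν * (L * L * 2 ^ E) := Nat.mul_le_mul_left _ h1
          have h3 : 33 * ν * 2 ^ E * (3 * (L * L)) = 99 * ν * (L * L * 2 ^ E) := by ring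
          omega
      _ = ν * (132 * (L * L) * 2 ^ E) := by ring
      _ ≤ ν * (256 * (L * L) * 2 ^ E) := by
          apply Nat.mul_le_mul_left
          apply Nat.mul_le_mul_right
          omega
      _ ≤ ν * (m / 2) := Nat.mul_le_mul_left _ hbig

/-- the real condition -/
theorem main_real (S τ : ℕ) (hτ : 1 ≤ τ) (hτS : τ ≤ S) :
    (1 + 2 / ((S / τ : ℕ) : ℝ)) ^ (2 * (S / 64 * τ)) ≤ (2 : ℝ) ^ (τ ^ 2) := by
  set b := S / τ with hb
  have hb1 : 1 ≤ b := (Nat.one_le_div_iff hτ).2 hτS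
  have hb0 : (0 : ℝ) < b := by exact_mod_cast hb1
  -- `S ≤ 2 τ b`
  have hSb : S ≤ 2 * (τ * b) := by
    have h1 : S < τ * (b + 1) := by
      have := Nat.lt_mul_div_succ S hτ
      simpa [hb] using this
    have h2 : τ * 1 ≤ τ * b := Nat.mul_le_mul_left _ hb1
    nlinarith
  set c := S / 64 with hc
  have hc64 : 64 * c ≤ S := Nat.mul_div_le S 64
  have h1 : (1 + 2 / (b : ℝ)) ≤ Real.exp (2 / b) := by
    have := Real.add_one_le_exp (2 / (b : ℝ))
    linarith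
  have h2 : (1 + 2 / (b : ℝ)) ^ (2 * (c * τ)) ≤ Real.exp ((2 * (c * τ) : ℕ) * (2 / b)) := by
    rw [Real.exp_nat_mul]
    exact pow_le_pow_left₀ (by positivity) h1 _
  refine h2.trans ?_
  have h3 : ((2 * (c * τ) : ℕ) : ℝ) * (2 / b) ≤ (τ ^ 2 : ℕ) * (1 / 8) := by
    rw [mul_div_assoc', div_le_iff₀ hb0]
    have h4 : 8 * (2 * (c * τ) * 2) ≤ τ ^ 2 * b := by
      have h5 : 64 * c * τ ≤ 2 * (τ * b) * τ := Nat.mul_le_mul_right _ (hc64.trans hSb)
      nlinarith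
    have h6 : (8 : ℝ) * (((2 * (c * τ) : ℕ) : ℝ) * 2) ≤ (τ ^ 2 : ℕ) * b := by exact_mod_cast h4
    linarith
  have h5 : Real.exp (1 / 8) ≤ 2 := by
    have : (1 : ℝ) / 8 ≤ Real.log 2 := by
      have := Real.log_two_gt_d9
      linarith
    calc Real.exp (1 / 8) ≤ Real.exp (Real.log 2) := Real.exp_le_exp.2 this
      _ = 2 := Real.exp_log (by norm_num)
  calc Real.exp (((2 * (c * τ) : ℕ) : ℝ) * (2 / b)) ≤ Real.exp ((τ ^ 2 : ℕ) * (1 / 8)) :=
        Real.exp_le_exp.2 h3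
    _ = Real.exp (1 / 8) ^ (τ ^ 2) := by rw [Real.exp_nat_mul]
    _ ≤ 2 ^ (τ ^ 2) := pow_le_pow_left₀ (Real.exp_pos _).le h5 _

theorem size_large (k S : ℕ) (h : 2 ^ k ≤ S) : k < Nat.size S := Nat.lt_size.2 h

theorem partH1 : PartH1 := by
  unfold PartH1
  rw [Filter.eventually_atTop]
  refine ⟨(2 ^ 2 ^ 11) * (2 ^ 2 ^ 11), fun ℓ hℓ => ?_⟩
  have hS : 2 ^ 2 ^ 11 ≤ pS ℓ := Nat.le_sqrt.2 hℓ
  have hsz : 12 ≤ Nat.size (Nat.size (pS ℓ)) := by
    have h1 := size_large _ _ hS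
    exact size_large 11 _ h1.le
  obtain ⟨h1, h2, h3, h4, h5, h6⟩ := main_nat (pS ℓ) hsz
  have hsq : pS ℓ * pS ℓ ≤ ℓ := Nat.sqrt_le ℓ
  have hτS : tau (pS ℓ) ≤ pS ℓ := by
    by_contra hcon
    push Not at hcon
    rw [Nat.div_eq_of_lt hcon] at h3
    omega
  exact ⟨h2, h1, h3, h4.trans hsq, h5, h6, main_real (pS ℓ) (tau (pS ℓ)) h1 hτS⟩

end Vale.Agent.P336.H792
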