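import Mathlib

/-!
# P336: the parameters
-/

namespace Vale.Agent.P336.Num

/-- the slowly growing parameter -/
def tau (S : ℕ) : ℕ := Nat.sqrt (Nat.size S / (128 * Nat.size (Nat.size S)))

/-- number of groups, and width of the narrow clauses -/
def gg (S : ℕ) : ℕ := tau S * tau S

/-- half the size of the groups -/
def mm (S : ℕ) : ℕ := S / (8 * tau S)

/-- size of the blocks -/
def bb (S : ℕ) : ℕ := S / tau S

/-- number of blocks -/
def NN (S : ℕ) : ℕ := 2 * (gg S * mm S)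

/-- the exponent of the lower bound -/
def nu (S : ℕ) : ℕ := S / 64 * tau S

/-- width of the clauses -/
def kk (S : ℕ) : ℕ := bb S * gg S / 12

/-- the moment -/
def nm (S : ℕ) : ℕ := 2 * (S / (256 * tau S))

/-- exponent of the union bound divided by the moment -/
def QQ (S : ℕ) : ℕ := tau S * (S / 256)

/-- exponent for the number of pieces of the sparsification -/
def FF (S : ℕ) : ℕ := NN S / 16 + 1

theorem pow_lin (μ : ℕ) (h : 12 ≤ μ) : 128 * μ ≤ 2 ^ (μ - 1) := by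
  obtain ⟨k, rfl⟩ := Nat.exists_eq_add_of_le h
  induction k with
  | zero => norm_num
  | succ k ih =>
    have ih' := ih (by omega)
    have e : 12 + (k + 1) - 1 = (12 + k - 1) + 1 := by omega
    rw [e, pow_succ]
    omega

theorem pow_size_le {S : ℕ} (h : 1 ≤ S) : 2 ^ (Nat.size S - 1) ≤ S := by
  have h1 : Nat.size S ≠ 0 := by
    rw [Ne, Nat.size_eq_zero]; omega
  exact Nat.lt_size.1 (by omega)

/-- Basic facts about the parameters. -/
structure Basic (S : ℕ) : Prop where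
  hμ : 12 ≤ Nat.size (Nat.size S)
  hL0 : 2 ^ (Nat.size (Nat.size S) - 1) ≤ Nat.size S
  hL1 : 128 * Nat.size (Nat.size S) ≤ Nat.size S
  hLμ : Nat.size S < 2 ^ Nat.size (Nat.size S)
  hS0 : 2 ^ (Nat.size S - 1) ≤ S
  hSL : S < 2 ^ Nat.size S
  hτ : 1 ≤ tau S
  hτL : tau S * tau S * (128 * Nat.size (Nat.size S)) ≤ Nat.size S

theorem basic {S : ℕ} (hS : 12 ≤ Nat.size (Nat.size S)) : Basic S := by
  have hL0 : 2 ^ (Nat.size (Nat.size S) - 1) ≤ Nat.size S := pow_size_le (by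
    by_contra h
    have : Nat.size S = 0 := by omega
    rw [this] at hS
    simp at hS)
  have hL1 : 128 * Nat.size (Nat.size S) ≤ Nat.size S := (pow_lin _ hS).trans hL0
  refine ⟨hS, hL0, hL1, Nat.lt_size_self _, pow_size_le (by
    by_contra h
    have : S = 0 := by omega
    rw [this] at hL1 hS
    simp at hS), Nat.lt_size_self _, ?_, ?_⟩
  · unfold tau
    rw [Nat.le_sqrt, Nat.le_div_iff_mul_le (by omega)]
    omega
  · have h1 : tau S * tau S ≤ Nat.size S / (128 * Nat.size (Nat.size S)) := Nat.sqrt_le _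
    exact (Nat.mul_le_mul_right _ h1).trans (Nat.div_mul_le_self _ _)

/-- Polynomials in `L` times `2 ^ (L / 4)` are small. -/
theorem poly_le' {S L μ : ℕ} (h1 : 12 ≤ μ) (h2 : 128 * μ ≤ L) (h3 : L < 2 ^ μ)
    (h4 : 2 ^ (L - 1) ≤ S) : 2 ^ 40 * L ^ 4 * 2 ^ (L / 4) ≤ S := by
  have h5 : L ^ 4 ≤ 2 ^ (4 * μ) := by
    rw [mul_comm, pow_mul]
    exact Nat.pow_le_pow_left h3.le 4
  calc 2 ^ 40 * L ^ 4 * 2 ^ (L / 4) ≤ 2 ^ 40 * 2 ^ (4 * μ) * 2 ^ (L / 4) := by gcongr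
    _ = 2 ^ (40 + 4 * μ + L / 4) := by rw [pow_add, pow_add]
    _ ≤ 2 ^ (L - 1) := Nat.pow_le_pow_right (by norm_num) (by omega)
    _ ≤ S := h4

theorem poly_le {S : ℕ} (h : Basic S) :
    2 ^ 40 * Nat.size S ^ 4 * 2 ^ (Nat.size S / 4) ≤ S :=
  poly_le' h.hμ h.hL1 h.hLμ h.hS0

/-- `τ² ≤ L`. -/
theorem tt_le {S : ℕ} (h : Basic S) : tau S * tau S ≤ Nat.size S := by
  have h1 := h.hτL
  have h2 := h.hμ
  nlinarith

theorem L_le {S : ℕ} (h : Basic S) : 2 ^ 40 * Nat.size S ≤ S := by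
  have h1 := poly_le h
  have h2 : 1 ≤ Nat.size S := by have := h.hL1; have := h.hμ; omega
  have h3 : Nat.size S ≤ Nat.size S ^ 4 := Nat.le_self_pow (by norm_num) _
  have h4 : 1 ≤ 2 ^ (Nat.size S / 4) := Nat.one_le_two_pow
  calc 2 ^ 40 * Nat.size S = 2 ^ 40 * Nat.size S * 1 := by ring
    _ ≤ 2 ^ 40 * Nat.size S ^ 4 * 2 ^ (Nat.size S / 4) := by gcongr
    _ ≤ S := h1

theorem tau_le {S : ℕ} (h : Basic S) : 2 ^ 40 * tau S ≤ S := by
  have h1 := L_le h
  have h2 := tt_le h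
  have h3 := h.hτ
  nlinarith

/-- space -/
theorem space {S : ℕ} (h : Basic S) :
    gg S * (2 * (mm S * (2 * bb S + 2) + 2) + (mm S * mm S * 4 + 2)) ≤ S * S := by
  have h1 := tau_le h
  have h2 := h.hτ
  unfold gg
  have h3 : 8 * (tau S * mm S) ≤ S := by
    have := Nat.mul_div_le S (8 * tau S)
    unfold mm
    linarith
  have h4 : tau S * bb S ≤ S := Nat.mul_div_le S (tau S)
  generalize tau S = τ at *
  generalize mm S = m at *
  generalize bb S = b at *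
  have e : τ * τ * (2 * (m * (2 * b + 2) + 2) + (m * m * 4 + 2)) =
      4 * ((τ * m) * (τ * b)) + 4 * (τ * (τ * m)) + 4 * ((τ * m) * (τ * m)) + 6 * (τ * τ) := by
    ring
  rw [e]
  have h5 : 8 * ((τ * m) * (τ * b)) ≤ S * S := by
    calc 8 * ((τ * m) * (τ * b)) = (8 * (τ * m)) * (τ * b) := by ring
      _ ≤ S * S := Nat.mul_le_mul h3 h4
  have h6 : 64 * ((τ * m) * (τ * m)) ≤ S * S := by
    calc 64 * ((τ * m) * (τ * m)) = (8 * (τ * m)) * (8 * (τ * m)) := by ring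
      _ ≤ S * S := Nat.mul_le_mul h3 h3
  have h7 : 64 * (τ * (τ * m)) ≤ S * S := by
    calc 64 * (τ * (τ * m)) = (8 * τ) * (8 * (τ * m)) := by ring
      _ ≤ S * S := Nat.mul_le_mul (by omega) h3
  have h8 : 64 * (τ * τ) ≤ S * S := by
    calc 64 * (τ * τ) = (8 * τ) * (8 * τ) := by ring
      _ ≤ S * S := Nat.mul_le_mul (by omega) (by omega)
  omega

/-- width -/
theorem width {S : ℕ} (h : Basic S) : 2 * nu S + 3 ≤ kk S := by
  have h1 := tau_le h
  have h2 := h.hτ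
  unfold nu kk gg bb
  rw [Nat.le_div_iff_mul_le (by norm_num)]
  have h3 : S < tau S * (S / tau S) + tau S := by
    have := Nat.lt_mul_div_succ S h2
    simpa [mul_add] using this
  have h4 : 64 * (S / 64) ≤ S := Nat.mul_div_le S 64
  generalize tau S = τ at *
  generalize S / τ = b at *
  generalize S / 64 = c at *
  have h5 : 2 * (τ * b) ≥ S := by omega
  have h6 : 24 * c + 36 ≤ b * τ := by
    have : b * τ = τ * b := mul_comm _ _
    omega
  calc (2 * (c * τ) + 3) * 12 = 24 * c * τ + 36 := by ring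
    _ ≤ 24 * c * τ + 36 * τ := by omega
    _ = (24 * c + 36) * τ := by ring
    _ ≤ (b * τ) * τ := Nat.mul_le_mul_right _ h6
    _ = b * (τ * τ) := by ring

theorem mm_le {S : ℕ} : 8 * (tau S * mm S) ≤ S := by
  have := Nat.mul_div_le S (8 * tau S)
  unfold mm
  linarith

theorem NN_le (S : ℕ) : 4 * NN S ≤ tau S * S := by
  have h3 := mm_le (S := S)
  unfold NN gg
  calc 4 * (2 * (tau S * tau S * mm S)) = tau S * (8 * (tau S * mm S)) := by ring
    _ ≤ tau S * S := Nat.mul_le_mul_left _ h3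

theorem NN_lt {S : ℕ} (h : Basic S) : 1 + 2 * NN S ≤ 2 ^ (2 * Nat.size S) := by
  have h1 := NN_le S
  have h2 := tau_le h
  have h3 := h.hSL
  have h4 := h.hτ
  have h5 : 4 * NN S ≤ S * S := h1.trans (Nat.mul_le_mul_right _ (by omega))
  have h6 : S * S ≤ 2 ^ Nat.size S * 2 ^ Nat.size S := Nat.mul_le_mul h3.le h3.le
  have h7 : 2 ≤ S := by omega
  have h8 : 2 * 2 ≤ S * S := Nat.mul_le_mul h7 h7
  calc 1 + 2 * NN S ≤ S * S := by omega
    _ ≤ 2 ^ Nat.size S * 2 ^ Nat.size S := h6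
    _ = 2 ^ (2 * Nat.size S) := by rw [two_mul, pow_add]

/-- the moment times its exponent -/
theorem nmQQ_ge {S : ℕ} (h : Basic S) : 2 * (S * S) ≤ 2 ^ 18 * (nm S * QQ S) := by
  have h1 := tau_le h
  have h2 := h.hτ
  have h3 : S ≤ 512 * (tau S * (S / (256 * tau S))) := by
    have := Nat.lt_mul_div_succ S (b := 256 * tau S) (by omega)
    rw [mul_add, mul_one, mul_assoc] at this
    omega
  have h4 : S ≤ 512 * (S / 256) := by omega
  unfold nm QQ
  calc 2 * (S * S) ≤ 2 * ((512 * (tau S * (S / (256 * tau S)))) * (512 * (S / 256))) := by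
        gcongr
    _ = 2 ^ 18 * (2 * (S / (256 * tau S)) * (tau S * (S / 256))) := by ring

/-- union bound -/
theorem union {S K : ℕ} (h : Basic S) (hK : K ≤ NN S * 2 ^ (Nat.size S / 4)) :
    4 ^ NN S * (1 + (1 + 2 * NN S) ^ gg S) ^ K < 2 ^ (nm S * QQ S) := by
  have hp := poly_le h
  have hN := NN_lt h
  have hN4 := NN_le S
  have htt : gg S ≤ Nat.size S := tt_le h
  have hq := nmQQ_ge h
  have hτ1 := h.hτ
  have hτL : tau S ≤ Nat.size S := (Nat.le_mul_of_pos_left _ hτ1).trans (tt_le h)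
  have hS0 : 0 < S := by
    have := tau_le h
    omega
  have hL1 : 1 ≤ Nat.size S := hτ1.trans hτL
  generalize NN S = N at *
  generalize gg S = t at *
  generalize tau S = τ at *
  generalize Nat.size S = L at *
  generalize nm S * QQ S = q at *
  have h1 : 1 + (1 + 2 * N) ^ t ≤ 2 ^ (3 * L ^ 2) := by
    have h2 : (1 + 2 * N) ^ t ≤ 2 ^ (2 * L ^ 2) := by
      calc (1 + 2 * N) ^ t ≤ (2 ^ (2 * L)) ^ t := Nat.pow_le_pow_left hN t
        _ = 2 ^ (2 * L * t) := by rw [← pow_mul]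
        _ ≤ 2 ^ (2 * L ^ 2) := Nat.pow_le_pow_right (by norm_num) (by nlinarith)
    have h3 : 1 ≤ 2 ^ (2 * L ^ 2) := Nat.one_le_two_pow
    calc 1 + (1 + 2 * N) ^ t ≤ 2 ^ (2 * L ^ 2) + 2 ^ (2 * L ^ 2) := Nat.add_le_add h3 h2
      _ = 2 ^ (2 * L ^ 2 + 1) := by rw [pow_succ]; ring
      _ ≤ 2 ^ (3 * L ^ 2) := Nat.pow_le_pow_right (by norm_num) (by nlinarith)
  have h2 : 1 ≤ 2 ^ (L / 4) := Nat.one_le_two_pow
  calc 4 ^ N * (1 + (1 + 2 * N) ^ t) ^ K ≤ 2 ^ (2 * N) * (2 ^ (3 * L ^ 2)) ^ K := by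
        have : (4 : ℕ) ^ N = 2 ^ (2 * N) := by rw [pow_mul]; norm_num
        rw [this]
        gcongr
    _ = 2 ^ (2 * N + 3 * L ^ 2 * K) := by rw [← pow_mul, ← pow_add]
    _ < 2 ^ q := by
      refine Nat.pow_lt_pow_right (by norm_num) ?_
      have h4 : 2 * N + 3 * L ^ 2 * K ≤ 5 * (N * L ^ 2 * 2 ^ (L / 4)) := by
        have h5 : 1 ≤ L ^ 2 * 2 ^ (L / 4) := Nat.mul_pos (by positivity) h2
        have h6 : N * 1 ≤ N * (L ^ 2 * 2 ^ (L / 4)) := Nat.mul_le_mul_left _ h5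
        have h7 : 3 * L ^ 2 * K ≤ 3 * L ^ 2 * (N * 2 ^ (L / 4)) := Nat.mul_le_mul_left _ hK
        have h8 : 3 * L ^ 2 * (N * 2 ^ (L / 4)) = 3 * (N * L ^ 2 * 2 ^ (L / 4)) := by ring
        have h9 : N * (L ^ 2 * 2 ^ (L / 4)) = N * L ^ 2 * 2 ^ (L / 4) := by ring
        omega
      have h5 : 4 * (N * L ^ 2 * 2 ^ (L / 4)) ≤ S * (L ^ 4 * 2 ^ (L / 4)) := by
        calc 4 * (N * L ^ 2 * 2 ^ (L / 4)) = (4 * N) * (L ^ 2 * 2 ^ (L / 4)) := by ring
          _ ≤ (τ * S) * (L ^ 2 * 2 ^ (L / 4)) := Nat.mul_le_mul_right _ hN4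
          _ ≤ (L * S) * (L ^ 2 * 2 ^ (L / 4)) := by gcongr
          _ = S * (L ^ 3 * 2 ^ (L / 4)) := by ring
          _ ≤ S * (L ^ 4 * 2 ^ (L / 4)) := by
            apply Nat.mul_le_mul_left
            apply Nat.mul_le_mul_right
            exact Nat.pow_le_pow_right hL1 (by norm_num)
      have h6 : 2 ^ 40 * (4 * (N * L ^ 2 * 2 ^ (L / 4))) ≤ S * S := by
        calc 2 ^ 40 * (4 * (N * L ^ 2 * 2 ^ (L / 4))) ≤ 2 ^ 40 * (S * (L ^ 4 * 2 ^ (L / 4))) :=
              Nat.mul_le_mul_left _ h5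
          _ = S * (2 ^ 40 * L ^ 4 * 2 ^ (L / 4)) := by ring
          _ ≤ S * S := Nat.mul_le_mul_left _ hp
      have h7 : 0 < S * S := Nat.mul_pos hS0 hS0
      omega

/-- the exponent of the correlation bound -/
theorem expo {S : ℕ} (h : Basic S) :
    1 + FF S + (gg S * nm S + QQ S + gg S) + (nu S + 3) ≤ 2 * (gg S * mm S / 5) := by
  have h1 := tau_le h
  have h2 := h.hτ
  have h3 := tt_le h
  have h4 := L_le h
  have h9 : 16 * (NN S / 16) ≤ NN S := Nat.mul_div_le _ 16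
  have h10 := NN_le S
  unfold FF
  generalize NN S / 16 = F at *
  generalize NN S = N at *
  unfold nm QQ nu mm gg
  have h5 : S < 8 * (tau S * (S / (8 * tau S))) + 8 * tau S := by
    have := Nat.lt_mul_div_succ S (b := 8 * tau S) (by omega)
    rw [mul_add, mul_one, mul_assoc] at this
    exact this
  have h6 : 256 * (tau S * (S / (256 * tau S))) ≤ S := by
    have := Nat.mul_div_le S (256 * tau S)
    rw [mul_assoc] at this
    exact this
  have h7 : 256 * (S / 256) ≤ S := Nat.mul_div_le S 256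
  have h8 : 64 * (S / 64) ≤ S := Nat.mul_div_le S 64
  generalize tau S = τ at *
  generalize S / (8 * τ) = m at *
  generalize S / (256 * τ) = a at *
  generalize S / 256 = c at *
  generalize S / 64 = d at *
  have e1 : 256 * (τ * τ * (2 * a)) ≤ 2 * (τ * S) := by
    calc 256 * (τ * τ * (2 * a)) = 2 * (τ * (256 * (τ * a))) := by ring
      _ ≤ 2 * (τ * S) := by gcongr
  have e2 : 256 * (τ * c) ≤ τ * S := by
    calc 256 * (τ * c) = τ * (256 * c) := by ring
      _ ≤ τ * S := by gcongr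
  have e3 : 64 * (d * τ) ≤ τ * S := by
    calc 64 * (d * τ) = τ * (64 * d) := by ring
      _ ≤ τ * S := by gcongr
  have e4 : τ * S ≤ 8 * (τ * τ * m) + 8 * (τ * τ) := by
    calc τ * S ≤ τ * (8 * (τ * m) + 8 * τ) := by gcongr
      _ = 8 * (τ * τ * m) + 8 * (τ * τ) := by ring
  have e5 : 2 ^ 40 * (τ * τ) ≤ τ * S := by
    calc 2 ^ 40 * (τ * τ) = τ * (2 ^ 40 * τ) := by ring
      _ ≤ τ * S := by gcongr
  have e6 : 1 ≤ τ * τ := Nat.mul_pos h2 h2
  generalize τ * τ * (2 * a) = x1 at *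
  generalize τ * c = x2 at *
  generalize d * τ = x3 at *
  generalize τ * τ * m = x4 at *
  generalize τ * τ = x5 at *
  generalize τ * S = x6 at *
  omega

/-- the correlation bound -/
theorem delta_le {S : ℕ} (h : Basic S) :
    2 * ((2 ^ FF S : ℕ) : ℝ) * 2 ^ (gg S * nm S + QQ S + gg S) * (3 / 4) ^ (gg S * mm S) ≤
      1 / 2 ^ (nu S + 3) := by
  have h1 := expo h
  generalize gg S * nm S + QQ S + gg S = x at *
  generalize gg S * mm S = y at *
  generalize FF S = F at *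
  generalize nu S + 3 = z at *
  have h2 : ((3 : ℝ) / 4) ^ y ≤ (1 / 4) ^ (y / 5) := by
    calc ((3 : ℝ) / 4) ^ y ≤ (3 / 4) ^ (5 * (y / 5)) :=
          pow_le_pow_of_le_one (by norm_num) (by norm_num) (Nat.mul_div_le y 5)
      _ = ((3 / 4) ^ 5) ^ (y / 5) := by rw [pow_mul]
      _ ≤ (1 / 4) ^ (y / 5) := pow_le_pow_left₀ (by norm_num) (by norm_num) _
  have h3 : ((1 : ℝ) / 4) ^ (y / 5) * 2 ^ (2 * (y / 5)) = 1 := by
    rw [pow_mul, ← mul_pow]
    norm_num
  rw [le_div_iff₀ (by positivity)]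
  push_cast
  calc 2 * (2 : ℝ) ^ F * 2 ^ x * (3 / 4) ^ y * 2 ^ z ≤
        2 * 2 ^ F * 2 ^ x * (1 / 4) ^ (y / 5) * 2 ^ z := by gcongr
    _ = (1 / 4) ^ (y / 5) * 2 ^ (1 + F + x + z) := by
        rw [pow_add, pow_add, pow_add]; ring
    _ ≤ (1 / 4) ^ (y / 5) * 2 ^ (2 * (y / 5)) := by
        gcongr
        norm_num
    _ = 1 := h3

/-- the number of clauses of the sparse formulas -/
theorem clauses {S : ℕ} (h : Basic S) :
    (4096 * gg S ^ 3) ^ (gg S - 1) * (2 * NN S) ≤ NN S * 2 ^ (Nat.size S / 4) := by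
  have hμ := h.hμ
  have hL1 := h.hL1
  have hLμ := h.hLμ
  have htL : gg S * (128 * Nat.size (Nat.size S)) ≤ Nat.size S := h.hτL
  have ht1 : 1 ≤ gg S := Nat.mul_pos h.hτ h.hτ
  generalize NN S = N
  generalize gg S = t at *
  generalize Nat.size (Nat.size S) = μ at *
  generalize Nat.size S = L at *
  have htL' : t ≤ L := by nlinarith
  have h1 : 4096 * t ^ 3 ≤ 2 ^ (4 * μ) := by
    calc 4096 * t ^ 3 ≤ 2 ^ 12 * (2 ^ μ) ^ 3 := by
          gcongr
          · norm_num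
          · exact htL'.trans hLμ.le
      _ = 2 ^ (12 + μ * 3) := by rw [← pow_mul, ← pow_add]
      _ ≤ 2 ^ (4 * μ) := Nat.pow_le_pow_right (by norm_num) (by omega)
  have h2 : (4096 * t ^ 3) ^ (t - 1) * 2 ≤ 2 ^ (L / 4) := by
    calc (4096 * t ^ 3) ^ (t - 1) * 2 ≤ (2 ^ (4 * μ)) ^ (t - 1) * 2 := by gcongr
      _ = 2 ^ (4 * μ * (t - 1) + 1) := by rw [← pow_mul, pow_succ]
      _ ≤ 2 ^ (L / 4) := by
        apply Nat.pow_le_pow_right (by norm_num)
        rw [Nat.le_div_iff_mul_le (by norm_num)]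
        have h5 : 4 * μ * (t - 1) + 4 * μ = 4 * (t * μ) := by
          obtain ⟨s, rfl⟩ := Nat.exists_eq_add_of_le ht1
          simp only [Nat.add_sub_cancel_left]
          ring
        have h6 : t * (128 * μ) = 128 * (t * μ) := by ring
        omega
  calc (4096 * t ^ 3) ^ (t - 1) * (2 * N) = N * ((4096 * t ^ 3) ^ (t - 1) * 2) := by ring
    _ ≤ N * 2 ^ (L / 4) := Nat.mul_le_mul_left _ h2

end Vale.Agent.P336.Num
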