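import Mathlib

/-!
# Parameters for the disjoint sparsification lemma

`bs A i = (β i, β 1 + ... + β i)` for `i ≥ 1` with `β 1 = 2` and
`β (i+1) = 4 θ i + 2 θ i * (β 1 + ... + β i)`, `θ i = A * β i`.
`Sb L J = ∑_{j ≤ J} choose L j` bounds the number of leaves.
-/

namespace Vale.Agent.P336.Params

open Finset

/-- `bs A i = (β (i+1), β 1 + ... + β (i+1))`. -/
def bs (A : ℕ) : ℕ → ℕ × ℕ
  | 0 => (2, 2)
  | i + 1 => ((bs A i).1 * (2 * A * (2 + (bs A i).2)),
      (bs A i).2 + (bs A i).1 * (2 * A * (2 + (bs A i).2)))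

/-- `β 0 = 0`, `β 1 = 2`, `β (i+1) = 4 θ i + 2 θ i (β 1 + ... + β i)`. -/
def beta (A : ℕ) : ℕ → ℕ
  | 0 => 0
  | i + 1 => (bs A i).1

/-- `θ i = A * β i`. -/
def theta (A i : ℕ) : ℕ := A * beta A i

/-- the sum `β 1 + ... + β t`. -/
def betaSum (A t : ℕ) : ℕ := ∑ i ∈ range (t + 1), beta A i

theorem betaSum_succ_eq (A i : ℕ) : betaSum A (i + 1) = (bs A i).2 := by
  induction i with
  | zero => simp [betaSum, Finset.sum_range_succ, beta, bs]
  | succ i ih =>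
    rw [betaSum, Finset.sum_range_succ]
    change betaSum A (i + 1) + _ = _
    rw [ih]
    simp [beta, bs]

@[simp] theorem beta_zero (A : ℕ) : beta A 0 = 0 := rfl
@[simp] theorem beta_one (A : ℕ) : beta A 1 = 2 := rfl

theorem beta_succ (A i : ℕ) (hi : 1 ≤ i) :
    beta A (i + 1) = 4 * theta A i + 2 * theta A i * ∑ j ∈ range (i + 1), beta A j := by
  obtain ⟨i, rfl⟩ : ∃ k, i = k + 1 := ⟨i - 1, by omega⟩
  change (bs A (i + 1)).1 = _
  have h := betaSum_succ_eq A i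
  rw [betaSum] at h
  rw [h]
  simp only [bs, theta, beta]
  ring

theorem bs_fst_pos (A : ℕ) (hA : 1 ≤ A) (i : ℕ) : 1 ≤ (bs A i).1 := by
  induction i with
  | zero => simp [bs]
  | succ i ih =>
    simp only [bs]
    have : 1 ≤ 2 * A * (2 + (bs A i).2) := by nlinarith
    nlinarith

theorem beta_pos (A : ℕ) (hA : 1 ≤ A) {i : ℕ} (hi : 1 ≤ i) : 1 ≤ beta A i := by
  obtain ⟨i, rfl⟩ : ∃ k, i = k + 1 := ⟨i - 1, by omega⟩
  exact bs_fst_pos A hA i

theorem theta_pos (A : ℕ) (hA : 1 ≤ A) {i : ℕ} (hi : 1 ≤ i) : 1 ≤ theta A i :=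
  Nat.mul_pos hA (beta_pos A hA hi)

theorem bs_fst_le_snd (A i : ℕ) : (bs A i).1 ≤ (bs A i).2 := by
  cases i with
  | zero => simp [bs]
  | succ i => simp only [bs]; omega

theorem two_le_bs_snd (A i : ℕ) : 2 ≤ (bs A i).2 := by
  induction i with
  | zero => simp [bs]
  | succ i ih => simp only [bs]; exact le_trans ih (Nat.le_add_right _ _)

theorem bs_snd_le (A : ℕ) (hA : 1 ≤ A) (i : ℕ) : (bs A i).2 ≤ (10 * A) ^ (2 ^ i) := by
  have key : ∀ i, 5 * A * (bs A i).2 ≤ (10 * A) ^ (2 ^ i) := by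
    intro i
    induction i with
    | zero => simp [bs]; omega
    | succ i ih =>
      have h1 := bs_fst_le_snd A i
      have h2 := two_le_bs_snd A i
      have h3 : (bs A (i + 1)).2 ≤ 5 * A * (bs A i).2 ^ 2 := by
        simp only [bs]
        set s := (bs A i).2
        set b := (bs A i).1
        have e1 : b * (2 * A * (2 + s)) ≤ s * (2 * A * (s + s)) := by
          apply Nat.mul_le_mul h1
          apply Nat.mul_le_mul_left
          omega
        have e2 : s ≤ A * s ^ 2 := by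
          calc s = 1 * (s * 1) := by ring
            _ ≤ A * (s * s) := Nat.mul_le_mul hA (Nat.mul_le_mul_left _ (by omega))
            _ = A * s ^ 2 := by ring
        calc s + b * (2 * A * (2 + s)) ≤ A * s ^ 2 + s * (2 * A * (s + s)) := by omega
          _ = 5 * A * s ^ 2 := by ring
      calc 5 * A * (bs A (i + 1)).2 ≤ 5 * A * (5 * A * (bs A i).2 ^ 2) :=
            Nat.mul_le_mul_left _ h3
        _ = (5 * A * (bs A i).2) ^ 2 := by ring
        _ ≤ ((10 * A) ^ (2 ^ i)) ^ 2 := Nat.pow_le_pow_left ih 2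
        _ = (10 * A) ^ (2 ^ (i + 1)) := by rw [← pow_mul, pow_succ]
  refine le_trans ?_ (key i)
  calc (bs A i).2 = 1 * (bs A i).2 := by ring
    _ ≤ 5 * A * (bs A i).2 := Nat.mul_le_mul_right _ (by omega)

theorem betaSum_le (A : ℕ) (hA : 1 ≤ A) (t : ℕ) : betaSum A t ≤ (10 * A) ^ (2 ^ t) := by
  cases t with
  | zero => simp [betaSum]
  | succ i =>
    rw [betaSum_succ_eq]
    refine le_trans (bs_snd_le A hA i) ?_
    exact Nat.pow_le_pow_right (by omega) (Nat.pow_le_pow_right (by norm_num) (by omega))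

/-- partial sums of binomial coefficients -/
def Sb (L J : ℕ) : ℕ := ∑ j ∈ range (J + 1), L.choose j

@[simp] theorem Sb_zero_right (L : ℕ) : Sb L 0 = 1 := by simp [Sb]

theorem Sb_succ_succ (L J : ℕ) : Sb (L + 1) (J + 1) = Sb L (J + 1) + Sb L J := by
  unfold Sb
  rw [Finset.sum_range_succ' _ (J + 1), Finset.sum_range_succ' (fun j => L.choose j) (J + 1)]
  simp only [Nat.choose_succ_succ, Finset.sum_add_distrib, Nat.choose_zero_right]
  ring

theorem Sb_mono_left {L L' : ℕ} (h : L ≤ L') (J : ℕ) : Sb L J ≤ Sb L' J :=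
  Finset.sum_le_sum fun _ _ => Nat.choose_le_choose _ h

theorem Sb_mono_right (L : ℕ) {J J' : ℕ} (h : J ≤ J') : Sb L J ≤ Sb L J' :=
  Finset.sum_le_sum_of_subset (Finset.range_mono (by omega))

theorem Sb_mono {L L' J J' : ℕ} (h : L ≤ L') (h' : J ≤ J') : Sb L J ≤ Sb L' J' :=
  (Sb_mono_left h J).trans (Sb_mono_right L' h')

theorem one_le_Sb (L J : ℕ) : 1 ≤ Sb L J := by
  calc 1 = Sb L 0 := by simp
    _ ≤ Sb L J := Sb_mono_right L (Nat.zero_le _)

/-- The step used for the number of leaves. -/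
theorem Sb_step (L J : ℕ) : Sb L (J + 1) + Sb L J = Sb (L + 1) (J + 1) := (Sb_succ_succ L J).symm

/-- `∑_{j ≤ J} choose L j ≤ 2^(q J) exp (L / 2^q)`. -/
theorem Sb_le_exp (L J q : ℕ) :
    (Sb L J : ℝ) ≤ 2 ^ (q * J) * Real.exp (L / 2 ^ q) := by
  have hx : (0 : ℝ) < (2 : ℝ) ^ q := by positivity
  set x : ℝ := 1 / 2 ^ q with hxdef
  have hx0 : 0 < x := by positivity
  have hx1 : x ≤ 1 := by
    rw [hxdef, div_le_one hx]
    exact one_le_pow₀ (by norm_num)
  have h1 : (Sb L J : ℝ) * x ^ J ≤ (1 + x) ^ L := by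
    have h2 : (1 + x) ^ L = ∑ m ∈ range (L + 1), x ^ m * (L.choose m : ℝ) := by
      rw [add_comm, add_pow]
      simp
    rw [h2, Sb, Nat.cast_sum, Finset.sum_mul]
    calc ∑ j ∈ range (J + 1), (L.choose j : ℝ) * x ^ J
        ≤ ∑ j ∈ range (J + 1), x ^ j * (L.choose j : ℝ) := by
          apply Finset.sum_le_sum
          intro j hj
          rw [mul_comm]
          apply mul_le_mul_of_nonneg_right _ (Nat.cast_nonneg _)
          exact pow_le_pow_of_le_one hx0.le hx1 (by simp at hj; omega)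
      _ ≤ ∑ j ∈ range (max (J + 1) (L + 1)), x ^ j * (L.choose j : ℝ) := by
          apply Finset.sum_le_sum_of_subset_of_nonneg (Finset.range_mono (le_max_left _ _))
          intros; positivity
      _ = ∑ j ∈ range (L + 1), x ^ j * (L.choose j : ℝ) := by
          symm
          apply Finset.sum_subset (Finset.range_mono (le_max_right _ _))
          intro j _ hj
          have : L < j := by simp at hj; omega
          rw [Nat.choose_eq_zero_of_lt this]; simp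
  have h3 : (1 + x) ^ L ≤ Real.exp (L / 2 ^ q) := by
    have : (1 + x) ≤ Real.exp x := by
      have := Real.add_one_le_exp x
      linarith
    calc (1 + x) ^ L ≤ (Real.exp x) ^ L := pow_le_pow_left₀ (by positivity) this L
      _ = Real.exp (L * x) := by rw [← Real.exp_nat_mul]
      _ = Real.exp (L / 2 ^ q) := by rw [hxdef]; ring_nf
  have h4 : x ^ J * 2 ^ (q * J) = 1 := by
    rw [hxdef, pow_mul, ← mul_pow]
    simp
  calc (Sb L J : ℝ) = (Sb L J : ℝ) * x ^ J * 2 ^ (q * J) := by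
        rw [mul_assoc, h4, mul_one]
    _ ≤ Real.exp (L / 2 ^ q) * 2 ^ (q * J) := by
        apply mul_le_mul_of_nonneg_right (h1.trans h3) (by positivity)
    _ = 2 ^ (q * J) * Real.exp (L / 2 ^ q) := by ring


theorem exists_small (t : ℕ) (c : ℕ) {ε : ℝ} (hε : 0 < ε) :
    ∃ a : ℕ, ((2 ^ t * (a + 4) + c : ℕ) : ℝ) * t / 2 ^ a ≤ ε := by
  have h1 := tendsto_pow_const_div_const_pow_of_one_lt 1 (r := (2 : ℝ)) (by norm_num)
  have h0 := tendsto_pow_const_div_const_pow_of_one_lt 0 (r := (2 : ℝ)) (by norm_num)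
  have h : Filter.Tendsto (fun a : ℕ => (2 ^ t * t : ℝ) * ((a : ℝ) ^ 1 / 2 ^ a) +
      ((4 * 2 ^ t + c) * t : ℝ) * ((a : ℝ) ^ 0 / 2 ^ a)) Filter.atTop (nhds 0) := by
    have := (h1.const_mul (2 ^ t * t : ℝ)).add (h0.const_mul ((4 * 2 ^ t + c) * t : ℝ))
    simpa using this
  obtain ⟨a, ha⟩ := (h.eventually (gt_mem_nhds hε)).exists
  refine ⟨a, ?_⟩
  have e : ((2 ^ t * (a + 4) + c : ℕ) : ℝ) * t / 2 ^ a =
      (2 ^ t * t : ℝ) * ((a : ℝ) ^ 1 / 2 ^ a) +
      ((4 * 2 ^ t + c) * t : ℝ) * ((a : ℝ) ^ 0 / 2 ^ a) := by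
    push_cast; ring
  rw [e]
  exact ha.le

/-- Choice of the parameter: for every `t` and `ε > 0` there is `A ≥ 1` such that the number
of leaves `Sb (betaSum A t * N) (t * (N / A))` is at most `2 ^ (ε N)` for all `N`. -/
theorem params (t : ℕ) {ε : ℝ} (hε : 0 < ε) :
    ∃ A : ℕ, 1 ≤ A ∧ ∀ N L J : ℕ, L ≤ betaSum A t * N → J ≤ t * (N / A) →
      (Sb L J : ℝ) ≤ (2 : ℝ) ^ (ε * N) := by
  obtain ⟨c, hc⟩ : ∃ c : ℕ, 4 / ε ≤ (2 : ℝ) ^ c :=
    (pow_unbounded_of_one_lt (4 / ε) (by norm_num : (1 : ℝ) < 2)).imp fun _ h => h.le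
  obtain ⟨a, ha⟩ := exists_small t c (half_pos hε)
  refine ⟨2 ^ a, Nat.one_le_two_pow, ?_⟩
  intro N L J hL hJ
  refine le_trans (Nat.cast_le.2 (Sb_mono hL hJ)) ?_
  set q := 2 ^ t * (a + 4) + c with hq
  refine le_trans (Sb_le_exp _ _ q) ?_
  have hs : ((betaSum (2 ^ a) t : ℕ) : ℝ) ≤ 2 ^ (2 ^ t * (a + 4)) := by
    have h1 := betaSum_le (2 ^ a) Nat.one_le_two_pow t
    have h2 : (10 * 2 ^ a) ^ 2 ^ t ≤ (2 : ℕ) ^ (2 ^ t * (a + 4)) := by
      calc (10 * 2 ^ a) ^ 2 ^ t ≤ (2 ^ (a + 4)) ^ 2 ^ t := by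
            apply Nat.pow_le_pow_left
            calc 10 * 2 ^ a ≤ 2 ^ 4 * 2 ^ a := Nat.mul_le_mul_right _ (by norm_num)
              _ = 2 ^ (a + 4) := by ring
        _ = 2 ^ (2 ^ t * (a + 4)) := by rw [← pow_mul]; ring_nf
    exact_mod_cast h1.trans h2
  have hN0 : (0 : ℝ) ≤ N := Nat.cast_nonneg _
  have e1 : ((betaSum (2 ^ a) t * N : ℕ) : ℝ) / 2 ^ q ≤ ε / 4 * N := by
    rw [div_le_iff₀ (by positivity), hq, pow_add]
    push_cast
    have h4 : 1 ≤ ε / 4 * 2 ^ c := by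
      have := mul_le_mul_of_nonneg_left hc (by positivity : (0 : ℝ) ≤ ε / 4)
      have e : ε / 4 * (4 / ε) = 1 := by field_simp
      linarith
    calc ((betaSum (2 ^ a) t : ℕ) : ℝ) * N ≤ 2 ^ (2 ^ t * (a + 4)) * N := by gcongr
      _ = 1 * (2 ^ (2 ^ t * (a + 4)) * N) := by ring
      _ ≤ (ε / 4 * 2 ^ c) * (2 ^ (2 ^ t * (a + 4)) * N) := by gcongr
      _ = ε / 4 * N * (2 ^ (2 ^ t * (a + 4)) * 2 ^ c) := by ring
  have e2 : Real.exp (((betaSum (2 ^ a) t * N : ℕ) : ℝ) / 2 ^ q) ≤ (2 : ℝ) ^ (ε / 2 * N) := by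
    refine le_trans (Real.exp_le_exp.2 e1) ?_
    rw [Real.rpow_def_of_pos (by norm_num)]
    apply Real.exp_le_exp.2
    have hl : (1 : ℝ) / 2 ≤ Real.log 2 := by
      have := Real.log_two_gt_d9
      linarith
    have h0 : 0 ≤ ε / 2 * N := by positivity
    nlinarith
  have e3 : (2 : ℝ) ^ (q * (t * (N / 2 ^ a))) ≤ (2 : ℝ) ^ (ε / 2 * N) := by
    rw [← Real.rpow_natCast]
    apply Real.rpow_le_rpow_of_exponent_le (by norm_num)
    push_cast
    have h5 : ((N / 2 ^ a : ℕ) : ℝ) ≤ N / 2 ^ a := by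
      have := @Nat.cast_div_le ℝ _ _ _ N (2 ^ a)
      simpa using this
    calc (q : ℝ) * (t * ((N / 2 ^ a : ℕ) : ℝ)) ≤ q * (t * (N / 2 ^ a)) := by gcongr
      _ = (q * t / 2 ^ a) * N := by ring
      _ ≤ ε / 2 * N := by
        apply mul_le_mul_of_nonneg_right ha hN0
  calc (2 : ℝ) ^ (q * (t * (N / 2 ^ a))) *
        Real.exp (((betaSum (2 ^ a) t * N : ℕ) : ℝ) / 2 ^ q)
      ≤ (2 : ℝ) ^ (ε / 2 * N) * (2 : ℝ) ^ (ε / 2 * N) := by gcongr
    _ = (2 : ℝ) ^ (ε * N) := by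
      rw [← Real.rpow_add (by norm_num)]
      ring_nf

end Vale.Agent.P336.Params
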